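import Mathlib

/-!
# A kernel checker for truncated identities in the double quadratic extension

A polynomial in `x, y` is a list of rows, row `i` being the coefficients of `x^i y^j`; an element
of `ℤ[x,y][U,V]/(U² - F, V² - G₀ - U G₁)` has four components on `1, U, V, UV`. Products are
truncated. All operations agree with those of any commutative ring in which the two relations
hold, modulo the ideal `wt n` of values of weight at least `n` (`x, y` of weight `2`; `U, V` of
weight `5`). A residual that passes `isLow` has value in `wt n`.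
-/

namespace Vale.Agent.P266.CE.Checker

/-- The coefficients of a polynomial in `y`. -/
abbrev Row := List ℤ

/-- The rows of a polynomial in `x, y`. -/
abbrev Poly := List Row

/-- Sum of rows. -/
def radd : Row → Row → Row
  | [], q => q
  | p, [] => p
  | a :: p, b :: q => (a + b) :: radd p q

/-- A constant times a row. -/
def rsmul (c : ℤ) : Row → Row
  | [] => []
  | a :: p => (c * a) :: rsmul c p

/-- Product of rows, up to `y^m`. -/
def rmul : ℕ → Row → Row → Row
  | 0, _, _ => []
  | _ + 1, [], _ => []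
  | m + 1, a :: p, q => radd (rsmul a (q.take (m + 1))) (0 :: rmul m p q)

/-- Sum of polynomials. -/
def add : Poly → Poly → Poly
  | [], q => q
  | p, [] => p
  | a :: p, b :: q => radd a b :: add p q

/-- A constant times a polynomial. -/
def smul (c : ℤ) : Poly → Poly
  | [] => []
  | a :: p => rsmul c a :: smul c p

/-- A row times a polynomial, up to total degree `d`. -/
def rowMul : ℕ → Row → Poly → Poly
  | 0, _, _ => []
  | _ + 1, _, [] => []
  | d + 1, r, s :: q => rmul (d + 1) r s :: rowMul d r q

/-- Product of polynomials, up to total degree `d`. -/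
def mul : ℕ → Poly → Poly → Poly
  | 0, _, _ => []
  | _ + 1, [], _ => []
  | d + 1, r :: p, q => add (rowMul (d + 1) r q) ([] :: mul d p q)

/-- All coefficients of total degree below `d` vanish. -/
def isLowP : ℕ → Poly → Bool
  | 0, _ => true
  | _ + 1, [] => true
  | d + 1, r :: p => (r.take (d + 1)).all (fun c => c == 0) && isLowP d p

/-- Derivative of the coefficients, the first one having exponent `k`. -/
def rderivAux : ℕ → Row → Row
  | _, [] => []
  | k, a :: p => ((k : ℤ) * a) :: rderivAux (k + 1) p

/-- `∂/∂y`. -/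
def derivY : Poly → Poly
  | [] => []
  | r :: p => rderivAux 1 r.tail :: derivY p

/-- Derivative of the rows, the first one having exponent `k`. -/
def derivXAux : ℕ → Poly → Poly
  | _, [] => []
  | k, r :: p => rsmul (k : ℤ) r :: derivXAux (k + 1) p

/-- `∂/∂x`. -/
def derivX (p : Poly) : Poly := derivXAux 1 p.tail

section Eval

variable {R : Type*} [CommRing R] (x y : R)

/-- The value of a row. -/
def rev : Row → R
  | [] => 0
  | a :: p => (a : R) + y * rev p

/-- The value of a polynomial. -/
def ev : Poly → R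
  | [] => 0
  | r :: p => rev y r + x * ev p

/-- The ideal of values of total degree at least `d`. -/
def deg (d : ℕ) : Ideal R := Ideal.span {x, y} ^ d

variable {x y}

lemma deg_zero : deg x y 0 = ⊤ := by simp [deg, Ideal.one_eq_top]

lemma mul_x_mem {d : ℕ} {a : R} (h : a ∈ deg x y d) : x * a ∈ deg x y (d + 1) := by
  rw [deg, pow_succ']
  exact Ideal.mul_mem_mul (Ideal.subset_span (by simp)) h

lemma mul_y_mem {d : ℕ} {a : R} (h : a ∈ deg x y d) : y * a ∈ deg x y (d + 1) := by
  rw [deg, pow_succ']
  exact Ideal.mul_mem_mul (Ideal.subset_span (by simp)) h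

@[simp] lemma rev_radd : ∀ p q : Row, rev y (radd p q) = rev y p + rev y q
  | [], q => by simp [radd, rev]
  | a :: p, [] => by simp [radd, rev]
  | a :: p, b :: q => by
    simp only [radd, rev, rev_radd p q]
    push_cast
    ring

@[simp] lemma rev_rsmul (c : ℤ) : ∀ p : Row, rev y (rsmul c p) = c * rev y p
  | [] => by simp [rsmul, rev]
  | a :: p => by
    simp only [rsmul, rev, rev_rsmul c p]
    push_cast
    ring

lemma rev_take : ∀ (m : ℕ) (p : Row), rev y p - rev y (p.take m) ∈ deg x y m
  | 0, p => by simp [deg_zero]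
  | m + 1, [] => by simp [rev]
  | m + 1, a :: p => by
    simp only [List.take_succ_cons, rev]
    rw [show (a : R) + y * rev y p - ((a : R) + y * rev y (p.take m))
      = y * (rev y p - rev y (p.take m)) by ring]
    exact mul_y_mem (rev_take m p)

lemma rev_rmul : ∀ (m : ℕ) (p q : Row), rev y p * rev y q - rev y (rmul m p q) ∈ deg x y m
  | 0, p, q => by simp [deg_zero]
  | m + 1, [], q => by simp [rmul, rev]
  | m + 1, a :: p, q => by
    simp only [rmul, rev_radd, rev, rev_rsmul]
    rw [show ((a : R) + y * rev y p) * rev y q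
        - ((a : R) * rev y (q.take (m + 1)) + (((0 : ℤ) : R) + y * rev y (rmul m p q)))
      = (a : R) * (rev y q - rev y (q.take (m + 1)))
        + y * (rev y p * rev y q - rev y (rmul m p q)) by push_cast; ring]
    exact add_mem (Ideal.mul_mem_left _ _ (rev_take _ q)) (mul_y_mem (rev_rmul m p q))

@[simp] lemma ev_add : ∀ p q : Poly, ev x y (add p q) = ev x y p + ev x y q
  | [], q => by simp [add, ev]
  | r :: p, [] => by simp [add, ev]
  | r :: p, s :: q => by
    simp only [add, ev, ev_add p q, rev_radd]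
    ring

@[simp] lemma ev_smul (c : ℤ) : ∀ p : Poly, ev x y (smul c p) = c * ev x y p
  | [] => by simp [smul, ev]
  | r :: p => by
    simp only [smul, ev, ev_smul c p, rev_rsmul]
    ring

lemma ev_rowMul : ∀ (d : ℕ) (r : Row) (q : Poly),
    rev y r * ev x y q - ev x y (rowMul d r q) ∈ deg x y d
  | 0, r, q => by simp [deg_zero]
  | d + 1, r, [] => by simp [rowMul, ev]
  | d + 1, r, s :: q => by
    simp only [rowMul, ev]
    rw [show rev y r * (rev y s + x * ev x y q)
        - (rev y (rmul (d + 1) r s) + x * ev x y (rowMul d r q))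
      = (rev y r * rev y s - rev y (rmul (d + 1) r s))
        + x * (rev y r * ev x y q - ev x y (rowMul d r q)) by ring]
    exact add_mem (rev_rmul _ r s) (mul_x_mem (ev_rowMul d r q))

lemma ev_mul : ∀ (d : ℕ) (p q : Poly), ev x y p * ev x y q - ev x y (mul d p q) ∈ deg x y d
  | 0, p, q => by simp [deg_zero]
  | d + 1, [], q => by simp [mul, ev]
  | d + 1, r :: p, q => by
    simp only [mul, ev, ev_add, rev]
    rw [show (rev y r + x * ev x y p) * ev x y q
        - (ev x y (rowMul (d + 1) r q) + (0 + x * ev x y (mul d p q)))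
      = (rev y r * ev x y q - ev x y (rowMul (d + 1) r q))
        + x * (ev x y p * ev x y q - ev x y (mul d p q)) by ring]
    exact add_mem (ev_rowMul _ r q) (mul_x_mem (ev_mul d p q))

lemma rev_zero : ∀ p : Row, p.all (fun c => c == 0) = true → rev y p = 0
  | [], _ => rfl
  | a :: p, h => by
    simp only [List.all_cons, Bool.and_eq_true, beq_iff_eq] at h
    simp [rev, h.1, rev_zero p h.2]

lemma ev_low : ∀ (d : ℕ) (p : Poly), isLowP d p = true → ev x y p ∈ deg x y d
  | 0, p, _ => by simp [deg_zero]
  | d + 1, [], _ => by simp [ev]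
  | d + 1, r :: p, h => by
    simp only [isLowP, Bool.and_eq_true] at h
    simp only [ev]
    refine add_mem ?_ (mul_x_mem (ev_low d p h.2))
    simpa [rev_zero _ h.1] using rev_take (x := x) (y := y) (d + 1) r

/-! ### Derivatives -/

variable {k : Type*} [CommRing k] [Algebra k R] {M : Type*} [AddCommGroup M] [Module R M]
  [Module k M] (D : Derivation k R M)


lemma rderivAux_succ : ∀ (i : ℕ) (p : Row),
    rev y (rderivAux (i + 1) p) = rev y (rderivAux i p) + rev y p
  | i, [] => by simp [rderivAux, rev]
  | i, a :: p => by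
    simp only [rderivAux, rev, rderivAux_succ (i + 1) p]
    push_cast
    ring

lemma derivation_rev : ∀ p : Row, D (rev y p) = rev y (rderivAux 1 p.tail) • D y
  | [] => by simp [rev, rderivAux]
  | a :: p => by
    have h : rev y (rderivAux 1 p) = rev y p + y * rev y (rderivAux 1 p.tail) := by
      cases p with
      | nil => simp [rderivAux, rev]
      | cons b p =>
        simp only [rderivAux, rev, List.tail_cons, rderivAux_succ 1 p]
        push_cast
        ring
    simp only [rev, map_add, Derivation.map_intCast, zero_add, Derivation.leibniz,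
      derivation_rev p, List.tail_cons, h, add_smul, mul_smul]
    abel

lemma derivXAux_succ : ∀ (i : ℕ) (p : Poly),
    ev x y (derivXAux (i + 1) p) = ev x y (derivXAux i p) + ev x y p
  | i, [] => by simp [derivXAux, ev]
  | i, r :: p => by
    simp only [derivXAux, ev, derivXAux_succ (i + 1) p, rev_rsmul]
    push_cast
    ring

lemma derivation_ev : ∀ p : Poly,
    D (ev x y p) = ev x y (derivX p) • D x + ev x y (derivY p) • D y
  | [] => by simp [ev, derivX, derivXAux, derivY]
  | r :: p => by
    have h : ev x y (derivXAux 1 p) = ev x y p + x * ev x y (derivX p) := by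
      cases p with
      | nil => simp [derivX, derivXAux, ev]
      | cons s p =>
        simp only [derivX, derivXAux, ev, List.tail_cons, derivXAux_succ 1 p, rev_rsmul]
        push_cast
        ring
    show D (rev y r + x * ev x y p) = ev x y (derivXAux 1 p) • D x
      + (rev y (rderivAux 1 r.tail) + x * ev x y (derivY p)) • D y
    simp only [map_add, Derivation.leibniz, derivation_rev D r, derivation_ev p, h, add_smul,
      smul_add, mul_smul]
    abel

end Eval

/-! ### The double extension -/

/-- An element `p + U q`. -/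
structure El2 : Type where
  p : Poly
  q : Poly

/-- An element `a + V b`. -/
structure El4 : Type where
  a : El2
  b : El2

/-- The thresholds `⌈m/2⌉`. -/
def half (m : ℕ) : ℕ := (m + 1) / 2

/-- Sum in `ℤ[x,y][U]`. -/
def add2 (u v : El2) : El2 := ⟨add u.p v.p, add u.q v.q⟩

/-- A constant times an element of `ℤ[x,y][U]`. -/
def smul2 (c : ℤ) (u : El2) : El2 := ⟨smul c u.p, smul c u.q⟩

/-- Product in `ℤ[x,y][U]/(U² - F)`, up to weight `n`. -/
def mul2 (F : Poly) (n : ℕ) (u v : El2) : El2 :=
  ⟨add (mul (half n) u.p v.p) (mul (half n) (mul (half n) u.q v.q) F),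
    add (mul (half (n - 5)) u.p v.q) (mul (half (n - 5)) u.q v.p)⟩

/-- Sum. -/
def add4 (u v : El4) : El4 := ⟨add2 u.a v.a, add2 u.b v.b⟩

/-- A constant times an element. -/
def smul4 (c : ℤ) (u : El4) : El4 := ⟨smul2 c u.a, smul2 c u.b⟩

/-- Difference. -/
def sub4 (u v : El4) : El4 := add4 u (smul4 (-1) v)

/-- Product in the double extension, up to weight `n`. -/
def mul4 (F : Poly) (G : El2) (n : ℕ) (u v : El4) : El4 :=
  ⟨add2 (mul2 F n u.a v.a) (mul2 F n (mul2 F n u.b v.b) G),
    add2 (mul2 F (n - 5) u.a v.b) (mul2 F (n - 5) u.b v.a)⟩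

/-- Power, up to weight `n`. -/
def pow4 (F : Poly) (G : El2) (n : ℕ) (u : El4) : ℕ → El4
  | 0 => ⟨⟨[[1]], []⟩, ⟨[], []⟩⟩
  | i + 1 => mul4 F G n u (pow4 F G n u i)

/-- All terms of weight below `n` vanish. -/
def isLow (n : ℕ) (u : El4) : Bool :=
  isLowP (half n) u.a.p && isLowP (half (n - 5)) u.a.q && isLowP (half (n - 5)) u.b.p &&
    isLowP (half (n - 5 - 5)) u.b.q

section Eval

variable {R : Type*} [CommRing R] (x y U V : R)

/-- The value of an element of `ℤ[x,y][U]`. -/
def ev2 (u : El2) : R := ev x y u.p + U * ev x y u.q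

/-- The value of an element of the double extension. -/
def ev4 (u : El4) : R := ev2 x y U u.a + V * ev2 x y U u.b

/-- The values of weight at least `n` in `ℤ[x,y][U]`. -/
def wt2 (n : ℕ) : Ideal R := deg x y (half n) ⊔ Ideal.span {U} * deg x y (half (n - 5))

/-- The values of weight at least `n`. -/
def wt (n : ℕ) : Ideal R := wt2 x y U n ⊔ Ideal.span {V} * wt2 x y U (n - 5)

variable {x y U V}

lemma deg_le_wt2 (n : ℕ) : deg x y (half n) ≤ wt2 x y U n := le_sup_left

lemma U_mul_mem {n : ℕ} {a : R} (h : a ∈ deg x y (half (n - 5))) : U * a ∈ wt2 x y U n :=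
  Ideal.mem_sup_right (Ideal.mul_mem_mul (Ideal.mem_span_singleton_self U) h)

lemma V_mul_mem {n : ℕ} {a : R} (h : a ∈ wt2 x y U (n - 5)) : V * a ∈ wt x y U V n :=
  Ideal.mem_sup_right (Ideal.mul_mem_mul (Ideal.mem_span_singleton_self V) h)

@[simp] lemma ev2_add (u v : El2) : ev2 x y U (add2 u v) = ev2 x y U u + ev2 x y U v := by
  simp only [ev2, add2, ev_add]
  ring

@[simp] lemma ev2_smul (c : ℤ) (u : El2) : ev2 x y U (smul2 c u) = c * ev2 x y U u := by
  simp only [ev2, smul2, ev_smul]
  ring

@[simp] lemma ev4_add (u v : El4) : ev4 x y U V (add4 u v) = ev4 x y U V u + ev4 x y U V v := by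
  simp only [ev4, add4, ev2_add]
  ring

@[simp] lemma ev4_smul (c : ℤ) (u : El4) : ev4 x y U V (smul4 c u) = c * ev4 x y U V u := by
  simp only [ev4, smul4, ev2_smul]
  ring

@[simp] lemma ev4_sub (u v : El4) : ev4 x y U V (sub4 u v) = ev4 x y U V u - ev4 x y U V v := by
  simp only [sub4, ev4_add, ev4_smul]
  push_cast
  ring

variable {F : Poly} (hU : U ^ 2 = ev x y F)
include hU

lemma ev2_mul (n : ℕ) (u v : El2) :
    ev2 x y U u * ev2 x y U v - ev2 x y U (mul2 F n u v) ∈ wt2 x y U n := by
  have e : ev2 x y U u * ev2 x y U v - ev2 x y U (mul2 F n u v)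
      = (ev x y u.p * ev x y v.p - ev x y (mul (half n) u.p v.p))
        + (ev x y u.q * ev x y v.q - ev x y (mul (half n) u.q v.q)) * ev x y F
        + (ev x y (mul (half n) u.q v.q) * ev x y F
            - ev x y (mul (half n) (mul (half n) u.q v.q) F))
        + U * ((ev x y u.p * ev x y v.q - ev x y (mul (half (n - 5)) u.p v.q))
          + (ev x y u.q * ev x y v.p - ev x y (mul (half (n - 5)) u.q v.p))) := by
    simp only [ev2, mul2, ev_add]
    linear_combination (ev x y u.q * ev x y v.q) * hU
  rw [e]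
  refine add_mem (deg_le_wt2 n (add_mem (add_mem (ev_mul _ _ _) ?_) (ev_mul _ _ _))) ?_
  · exact Ideal.mul_mem_right _ _ (ev_mul _ _ _)
  · exact U_mul_mem (add_mem (ev_mul _ _ _) (ev_mul _ _ _))

variable {G : El2} (hV : V ^ 2 = ev2 x y U G)
include hV

theorem ev4_mul (n : ℕ) (u v : El4) :
    ev4 x y U V u * ev4 x y U V v - ev4 x y U V (mul4 F G n u v) ∈ wt x y U V n := by
  have e : ev4 x y U V u * ev4 x y U V v - ev4 x y U V (mul4 F G n u v)
      = (ev2 x y U u.a * ev2 x y U v.a - ev2 x y U (mul2 F n u.a v.a))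
        + (ev2 x y U u.b * ev2 x y U v.b - ev2 x y U (mul2 F n u.b v.b)) * ev2 x y U G
        + (ev2 x y U (mul2 F n u.b v.b) * ev2 x y U G
            - ev2 x y U (mul2 F n (mul2 F n u.b v.b) G))
        + V * ((ev2 x y U u.a * ev2 x y U v.b - ev2 x y U (mul2 F (n - 5) u.a v.b))
          + (ev2 x y U u.b * ev2 x y U v.a - ev2 x y U (mul2 F (n - 5) u.b v.a))) := by
    simp only [ev4, mul4, ev2_add]
    linear_combination (ev2 x y U u.b * ev2 x y U v.b) * hV
  rw [e]
  refine add_mem (Ideal.mem_sup_left (add_mem (add_mem (ev2_mul hU _ _ _) ?_) (ev2_mul hU _ _ _))) ?_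
  · exact Ideal.mul_mem_right _ _ (ev2_mul hU _ _ _)
  · exact V_mul_mem (add_mem (ev2_mul hU _ _ _) (ev2_mul hU _ _ _))

theorem ev4_pow (n : ℕ) (u : El4) :
    ∀ i : ℕ, ev4 x y U V u ^ i - ev4 x y U V (pow4 F G n u i) ∈ wt x y U V n
  | 0 => by simp [pow4, ev4, ev2, ev, rev]
  | i + 1 => by
    rw [show ev4 x y U V u ^ (i + 1) - ev4 x y U V (pow4 F G n u (i + 1))
      = ev4 x y U V u * (ev4 x y U V u ^ i - ev4 x y U V (pow4 F G n u i))
        + (ev4 x y U V u * ev4 x y U V (pow4 F G n u i)
          - ev4 x y U V (mul4 F G n u (pow4 F G n u i))) by rw [pow4]; ring]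
    exact add_mem (Ideal.mul_mem_left _ _ (ev4_pow n u i)) (ev4_mul hU hV _ _ _)

omit hU hV in
/-- What the kernel check proves. -/
theorem mem_wt_of_isLow {n : ℕ} {u : El4} (h : isLow n u = true) :
    ev4 x y U V u ∈ wt x y U V n := by
  simp only [isLow, Bool.and_eq_true] at h
  obtain ⟨⟨⟨h1, h2⟩, h3⟩, h4⟩ := h
  exact add_mem (Ideal.mem_sup_left (add_mem (deg_le_wt2 n (ev_low _ _ h1)) (U_mul_mem (ev_low _ _ h2))))
    (V_mul_mem (add_mem (deg_le_wt2 _ (ev_low _ _ h3)) (U_mul_mem (ev_low _ _ h4))))

omit hU hV in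
/-- A congruence and a check give a membership. -/
theorem mem_wt_of_congr {n : ℕ} {u : El4} {a : R} (h : a - ev4 x y U V u ∈ wt x y U V n)
    (hl : isLow n u = true) : a ∈ wt x y U V n := by
  simpa using add_mem h (mem_wt_of_isLow (x := x) (y := y) (U := U) (V := V) hl)

end Eval

end Vale.Agent.P266.CE.Checker
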