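import Mathlib

/-!
Lifting an approximate solution of a linear system to an exact one without completion: if a linear
map is surjective on a finitely generated submodule modulo `m` times it, then after multiplication by
an element congruent to `1` modulo any given power of `m` it is surjective on it.
-/

namespace Vale.Agent.P266.Lift

open Submodule

universe u v w

variable {R : Type u} [CommRing R] {M : Type v} [AddCommGroup M] [Module R M]
  {M' : Type w} [AddCommGroup M'] [Module R M'] {m : Ideal R}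

/-- Nakayama's lemma with the unit as close to `1` as wished. -/
theorem exists_pow_smul_mem {X Y : Submodule R M} (hX : X.FG) (h : X ≤ Y ⊔ m • X) (n : ℕ) :
    ∃ r : R, r - 1 ∈ m ^ n ∧ ∀ x ∈ X, r • x ∈ Y := by
  have h' : X.map Y.mkQ ≤ m • X.map Y.mkQ := by
    rw [← Submodule.map_smul'']
    refine (Submodule.map_mono h).trans ?_
    rw [Submodule.map_sup, sup_le_iff]
    exact ⟨by simp, le_rfl⟩
  obtain ⟨r, hr, hz⟩ := Submodule.exists_sub_one_mem_and_smul_eq_zero_of_fg_of_le_smul m
    (X.map Y.mkQ) (hX.map _) h'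
  obtain ⟨q, hq⟩ : r ∣ 1 - (1 - r) ^ n := by
    have := sub_dvd_pow_sub_pow (1 : R) (1 - r) n
    simpa using this
  refine ⟨1 - (1 - r) ^ n, ?_, fun x hx => ?_⟩
  · rw [sub_sub_cancel_left]
    exact neg_mem (Ideal.pow_mem_pow (by rw [← neg_sub]; exact neg_mem hr) n)
  · rw [hq, mul_comm, mul_smul]
    refine Y.smul_mem q ((Submodule.Quotient.mk_eq_zero Y).1 ?_)
    rw [Submodule.Quotient.mk_smul]
    exact hz _ ⟨x, hx, rfl⟩

/-- An approximate kernel vector is close to an exact one. -/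
theorem exists_correction (L : M' →ₗ[R] M) {X : Submodule R M} {N' : Submodule R M'}
    (hX : X.FG) (h : X ≤ N'.map L ⊔ m • X) {s : M'} (hs : L s ∈ X) (n : ℕ) :
    ∃ r : R, ∃ e ∈ N', r - 1 ∈ m ^ n ∧ L (r • s - e) = 0 := by
  obtain ⟨r, hr, hrX⟩ := exists_pow_smul_mem hX h n
  obtain ⟨e, he, hLe⟩ := hrX _ hs
  exact ⟨r, e, he, hr, by rw [map_sub, map_smul, hLe, sub_self]⟩

/-- The corrected vector agrees with the approximate one up to the correction space. -/
theorem exists_exact (L : M' →ₗ[R] M) {X : Submodule R M} {N' : Submodule R M'}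
    (hX : X.FG) (h : X ≤ N'.map L ⊔ m • X) {s : M'} (hs : L s ∈ X) (n : ℕ) :
    ∃ s' : M', L s' = 0 ∧ s' - s ∈ N' ⊔ m ^ n • (⊤ : Submodule R M') := by
  obtain ⟨r, e, he, hr, hL⟩ := exists_correction L hX h hs n
  refine ⟨r • s - e, hL, ?_⟩
  rw [show r • s - e - s = -e + (r - 1) • s by rw [sub_smul, one_smul]; abel]
  exact add_mem (mem_sup_left (neg_mem he))
    (mem_sup_right (smul_mem_smul hr mem_top))

/-- The hypothesis of `exists_correction` from preimages of generators. -/
theorem le_map_sup_of_generators (L : M' →ₗ[R] M) {X X₂ : Submodule R M} {N' : Submodule R M'}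
    {g : Set M} (hg : X ≤ span R g ⊔ X₂) (h₂ : X₂ ≤ m • X)
    (hp : ∀ x ∈ g, ∃ p ∈ N', x - L p ∈ X₂) : X ≤ N'.map L ⊔ m • X := by
  refine hg.trans (sup_le ?_ (h₂.trans le_sup_right))
  rw [span_le]
  intro x hx
  obtain ⟨p, hpN, hpx⟩ := hp x hx
  rw [← add_sub_cancel (L p) x]
  exact add_mem (mem_sup_left ⟨p, hpN, rfl⟩) (mem_sup_right (h₂ hpx))

/-- An approximate identity `a² - b² G = g⁹` becomes exact after rescaling. -/
theorem torsion_exact {a b g G r e₁ e₂ : R}
    (h : r * (a ^ 2 - b ^ 2 * G - g ^ 9) = a ^ 2 * e₁ + b ^ 2 * e₂) :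
    (a * ((r - e₁) ^ 5 * r ^ 4)) ^ 2
      - (b * ((r - e₁) ^ 4 * r ^ 4)) ^ 2 * ((r - e₁) * (r * G + e₂))
      = (g * ((r - e₁) * r)) ^ 9 := by
  linear_combination ((r - e₁) ^ 9 * r ^ 8) * h

/-- The rescaled coefficient is close to the original one. -/
theorem torsion_close {G r e₁ e₂ : R} {I : Ideal R} (hr : r - 1 ∈ I) (h₁ : e₁ ∈ I)
    (h₂ : e₂ ∈ I) : (r - e₁) * (r * G + e₂) - G ∈ I := by
  rw [show (r - e₁) * (r * G + e₂) - G
    = (r - 1) * ((r + 1) * G + e₂) + e₂ - e₁ * (r * G + e₂) by ring]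
  exact sub_mem (add_mem (I.mul_mem_right _ hr) h₂) (I.mul_mem_right _ h₁)

/-- A factor congruent to `1` changes nothing modulo the ideal. -/
theorem scale_close {a u : R} {I : Ideal R} (hu : u - 1 ∈ I) : a * u - a ∈ I := by
  rw [show a * u - a = a * (u - 1) by ring]
  exact I.mul_mem_left _ hu

/-- Both rescaling factors are congruent to `1`. -/
theorem unit_close {r e₁ : R} {I : Ideal R} (hr : r - 1 ∈ I) (h₁ : e₁ ∈ I) (i j : ℕ) :
    (r - e₁) ^ i * r ^ j - 1 ∈ I := by
  rw [← Ideal.Quotient.eq]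
  have er : Ideal.Quotient.mk I r = 1 := by
    rw [← map_one (Ideal.Quotient.mk I)]; exact Ideal.Quotient.eq.2 hr
  have e1 : Ideal.Quotient.mk I e₁ = 0 := Ideal.Quotient.eq_zero_iff_mem.2 h₁
  simp [er, e1]

/-- The submodule with prescribed `m`-adic order in each coordinate. -/
def weighted {ι : Type*} (m : Ideal R) (e : ι → M) (k : ι → ℕ) : Submodule R M :=
  ⨆ c, m ^ k c • span R {e c}

theorem weighted_anti {ι : Type*} (e : ι → M) {k k' : ι → ℕ} (h : ∀ c, k c ≤ k' c) :
    weighted m e k' ≤ weighted m e k :=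
  iSup_mono fun c => smul_mono_left (Ideal.pow_le_pow_right (h c))

theorem smul_weighted {ι : Type*} (e : ι → M) (k : ι → ℕ) :
    m • weighted m e k = weighted m e fun c => k c + 1 := by
  simp only [weighted, Submodule.smul_iSup, ← Submodule.mul_smul, pow_succ']

/-- Raising every order by at least one lands in `m` times the submodule. -/
theorem weighted_le_smul {ι : Type*} (e : ι → M) {k k' : ι → ℕ} (h : ∀ c, k c + 1 ≤ k' c) :
    weighted m e k' ≤ m • weighted m e k :=
  (smul_weighted (m := m) e k).symm ▸ weighted_anti e h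

theorem weighted_fg {ι : Type*} [Finite ι] (hm : m.FG) (e : ι → M) (k : ι → ℕ) :
    (weighted m e k).FG :=
  Submodule.fg_iSup _ fun _ => Submodule.FG.smul (Ideal.FG.pow hm) (fg_span_singleton _)

end Vale.Agent.P266.Lift
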